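import Vale.Agent.P352G87.Top2
import Vale.Agent.P352G75.Defs

/-!
# P352G: the two halves of the row FINZ
-/

set_option linter.all false

namespace Vale.Agent.P352G

open Vale.Agent.P352X Vale.Agent.P352X.EG
open Vale.Agent.P352 Vale.Agent.P352.GF Vale.Agent.P352.BW Vale.Agent.P352.H246
open Vale.Agent.P352.H496 Vale.Agent.P352.H755 Vale.Agent.P352.H15

universe u

variable (D : Type u) [NormedAddCommGroup D] [InnerProductSpace ℂ D]

/-- row NAG: the output of the graded net-only route -/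
def NAG : Prop := ∀ (c : Cg D) [NG.Nd c] [NG.NI c], MfAll c.Q → FSL c.Q → FinG c.Q c.T c.Γ c.N

/-- row NIZ: the output of the fork -/
def NIZ [GrD D] : Prop := ∀ (Q : Theory D) T A N (hN : LNmZ Q A N), Q.IsStress T → ND.PCh Q T A →
  TfGenZ Q → MfAll Q → FSL Q → UVac Q →
    (∃ z : NG.Nd hN.cg, z.T = T ∧ @NG.NI _ _ _ hN.cg z) ∧ MixE Q (Gm D)

variable {D}

theorem finz_of [GrD D] (h : NIZ D) (k : NAG D) : FINZ D := fun Q T A N a b d e f hN g => by
  obtain ⟨⟨z, rfl, n⟩, m⟩ := h Q T A N hN a b d e f g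
  exact ⟨k hN.cg e f, m⟩

theorem target_of3 (h : ∀ [GrD D], RSG D ∧ NIZ D) (k : NAG D) : Target D :=
  target_of ⟨h.1, finz_of h.2 k⟩

end Vale.Agent.P352G
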