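import Vale.Agent.P352NA.Pub

namespace Vale.Agent.P352G

open P352 GF BW H246 SubConf P352X P352NA
open UniformSpace (Completion)

variable {D : Type*} [NormedAddCommGroup D] [InnerProductSpace ℂ D]

/-- The theory `Q'` with the grading `G'` extends the theory `Q` in the same Hilbert space: its
domain `D'` contains all vectors that are generated from the vacuum by the fields of `Q`, the vacuum,
the grading and the similitudes are those of `Q`, and every (Bose) field `B` of `Q` gives a (Bose)
field `e B` of `Q'`, which agrees with `B` on these vectors; adjoints go to adjoints. -/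
structure ExtF (Q : Theory D) (Γ : Completion D →L[ℂ] Completion D)
    {D' : Submodule ℂ (Completion D)} (Q' : Theory D') (G' : D' → D') (e : Fld D → Fld D') :
    Prop extends Gr Q' G' where
  mem : ∀ w : D, Cyc Q w → (w : Completion D) ∈ D'
  vac : (Q'.vac : Completion D) = om Q
  G : ∀ v, (G' v : Completion D) = Γ v
  U : ∀ s L a v, 0 < s → IsLor L → (Q'.U s L a v : Completion D) = Ue Q s L a v
  fld : ∀ B, Q.fld B → Q'.fld (e B)
  bos : ∀ B, Q.bose B → Q'.bose (e B)
  adj : ∀ B B', Q.fld B → Q.fld B' → IsAdj B B' → IsAdj (e B) (e B')
  agree : ∀ B f (v : D') (w : D), Q.fld B → IsTest f → Cyc Q w → (v : Completion D) = w →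
    (e B f v : Completion D) = (B f w : D)

end Vale.Agent.P352G
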