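import Mathlib

/-!
# P352G: a derivation that vanishes on even operators vanishes
-/

set_option linter.all false

open Filter Topology
open scoped ComplexConjugate

namespace Vale.Agent.P352G

variable {H : Type*} [NormedAddCommGroup H] [InnerProductSpace ℂ H] [CompleteSpace H]

theorem si (X : H →L[ℂ] H) (v w : H) : inner ℂ (star X v) w = inner ℂ v (X w) :=
  ContinuousLinearMap.adjoint_inner_left X w v

theorem si' (X : H →L[ℂ] H) (v w : H) : inner ℂ v (star X w) = inner ℂ (X v) w :=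
  ContinuousLinearMap.adjoint_inner_right X v w

/-- the data of the soft argument -/
structure Soft (𝒜 𝒵 : Set (H →L[ℂ] H)) (Ω : H) (Γ : H →L[ℂ] H) (a : H → H)
    (U : ℝ → H →L[ℂ] H) : Prop where
  one : 1 ∈ 𝒜
  mul : ∀ X ∈ 𝒜, ∀ Y ∈ 𝒜, X * Y ∈ 𝒜
  str : ∀ X ∈ 𝒜, star X ∈ 𝒜
  da : Dense {z | ∃ X ∈ 𝒜, X Ω = z}
  dz : Dense {z | ∃ Z ∈ 𝒵, Z Ω = z}
  com : ∀ X ∈ 𝒜, ∀ Z ∈ 𝒵, X * Z = Z * X
  gs : star Γ = Γ
  uni : ∀ r, 0 < r → U r ∈ unitary (H →L[ℂ] H)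
  vac : ∀ r, 0 < r → U r Ω = Ω
  gU : ∀ r, 0 < r → Γ * U r = U r * Γ
  cj : ∀ r, 0 < r → ∀ X ∈ 𝒜, U r * X * star (U r) ∈ 𝒜
  cov : ∀ r, 0 < r → ∀ X ∈ 𝒜, a (U r (X Ω)) = U r (a (X Ω))
  wn : ∀ η w, Tendsto (fun r => inner ℂ w (U r η)) atTop (𝓝 (inner ℂ w Ω * inner ℂ Ω η))
  sym : ∀ X ∈ 𝒜, ∀ Y ∈ 𝒜, inner ℂ (a (X Ω)) (Y Ω) = inner ℂ (X Ω) (a (Y Ω))
  lei : ∀ X ∈ 𝒜, ∀ Y ∈ 𝒜, ∀ Z ∈ 𝒵, inner ℂ (Z Ω) (a (X (Y Ω))) =
    inner ℂ (Z (star X Ω)) (a (Y Ω)) - inner ℂ (Z (a (star X Ω))) (Y Ω)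
  ev : ∀ X ∈ 𝒜, Γ * X = X * Γ → a (X Ω) = 0

namespace Soft

variable {𝒜 𝒵 : Set (H →L[ℂ] H)} {Ω : H} {Γ : H →L[ℂ] H} {a : H → H} {U : ℝ → H →L[ℂ] H}
  (h : Soft 𝒜 𝒵 Ω Γ a U)
include h

theorem zs {X Z : H →L[ℂ] H} (hX : X ∈ 𝒜) (hZ : Z ∈ 𝒵) (w : H) :
    inner ℂ (Z (star X Ω)) w = inner ℂ (Z Ω) (X w) := by
  rw [← si X, ← ContinuousLinearMap.mul_apply, ← h.com _ (h.str X hX) Z hZ]
  rfl

theorem lin {E Y : H →L[ℂ] H} (hE : E ∈ 𝒜) (hY : Y ∈ 𝒜) (e : Γ * E = E * Γ) :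
    a (E (Y Ω)) = E (a (Y Ω)) := by
  refine h.dz.eq_of_inner_right ℂ ?_
  rintro _ ⟨Z, hZ, rfl⟩
  have e' : Γ * star E = star E * Γ := by
    have := congrArg star e
    rw [star_mul, star_mul, h.gs] at this
    exact this.symm
  rw [h.lei E hE Y hY Z hZ, h.ev _ (h.str E hE) e', map_zero, inner_zero_left, sub_zero, h.zs hE hZ]

theorem od_star {X : H →L[ℂ] H} (e : Γ * X = -(X * Γ)) : Γ * star X = -(star X * Γ) := by
  have := congrArg star e
  rw [star_neg, star_mul, star_mul, h.gs] at this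
  rw [this, neg_neg]

theorem scal {X Y : H →L[ℂ] H} (hX : X ∈ 𝒜) (hY : Y ∈ 𝒜) (eX : Γ * X = -(X * Γ))
    (eY : Γ * Y = -(Y * Γ)) :
    inner ℂ (X Ω) (X Ω) • a (Y Ω) = inner ℂ (X Ω) (a (X Ω)) • Y Ω := by
  refine h.da.eq_of_inner_right ℂ ?_
  rintro _ ⟨W, hW, rfl⟩
  have l1 := h.wn (star X (X Ω)) (star Y (a (W Ω)))
  have l2 := h.wn (star X (a (X Ω))) (star Y (W Ω))
  rw [si, si', h.sym W hW Y hY] at l1
  rw [si, si'] at l2
  rw [inner_smul_right, inner_smul_right, mul_comm, mul_comm (inner ℂ (X Ω) (a _))]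
  refine tendsto_nhds_unique l1 (l2.congr' ?_)
  filter_upwards [eventually_gt_atTop 0] with r hr
  have u1 : ∀ z, star (U r) (U r z) = z := fun z => DFunLike.congr_fun (h.uni r hr).1 z
  have u2 : star (U r) Ω = Ω := by
    conv_lhs => rw [← h.vac r hr]
    exact u1 _
  have gU' : Γ * star (U r) = star (U r) * Γ := by
    have := congrArg star (h.gU r hr)
    rw [star_mul, star_mul, h.gs] at this
    exact this.symm
  have m1 := h.cj r hr X hX
  have m2 := h.cj r hr _ (h.str X hX)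
  have m3 := h.mul Y hY _ m2
  have e : Γ * (Y * (U r * star X * star (U r))) = Y * (U r * star X * star (U r)) * Γ := by
    rw [← mul_assoc, eY, neg_mul, mul_assoc Y, ← mul_assoc Γ, ← mul_assoc Γ, h.gU r hr,
      mul_assoc (U r) Γ, h.od_star eX]
    simp only [mul_neg, neg_mul, neg_neg, mul_assoc, gU']
  have k := h.lin m3 m1 e
  have s := h.sym W hW _ (h.mul _ m3 _ m1)
  simp only [ContinuousLinearMap.mul_apply, u1, u2] at k s
  rw [si, si, s, k, h.cov r hr X hX, u1]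

theorem odd {Y : H →L[ℂ] H} (hY : Y ∈ 𝒜) (eY : Γ * Y = -(Y * Γ)) : a (Y Ω) = 0 := by
  have s1 := h.scal hY hY eY eY
  have s2 := h.scal hY (h.str Y hY) eY (h.od_star eY)
  set n := inner ℂ (Y Ω) (Y Ω)
  set κ := inner ℂ (Y Ω) (a (Y Ω))
  have hn : conj n = n := inner_conj_symm _ _
  have hκ : conj κ = κ := (inner_conj_symm _ _).trans (h.sym Y hY Y hY)
  have z : n • a (Y Ω) = 0 := by
    refine h.dz.eq_zero_of_inner_right ℂ ?_
    rintro _ ⟨Z, hZ, rfl⟩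
    have l := h.lei Y hY 1 h.one Z hZ
    have a0 : a Ω = 0 := h.ev 1 h.one (by rw [mul_one, one_mul])
    simp only [ContinuousLinearMap.one_apply, a0, inner_zero_right, zero_sub] at l
    have l2 : inner ℂ (Z Ω) (n • a (Y Ω)) = -inner ℂ (Z Ω) (n • a (Y Ω)) := by
      conv_lhs => rw [inner_smul_right, l, mul_neg, ← hn, ← inner_smul_left, ← map_smul, s2,
        map_smul, inner_smul_left, hκ, h.zs hY hZ, ← inner_smul_right, ← s1]
    linear_combination (1 / 2 : ℂ) * l2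
  rcases smul_eq_zero.1 z with z | z
  · refine h.da.eq_zero_of_inner_right ℂ ?_
    rintro _ ⟨W, hW, rfl⟩
    rw [← h.sym W hW Y hY, inner_self_eq_zero.1 z, inner_zero_right]
  · exact z

end Soft

/-- the Leibniz rule for the generator of a group that acts locally for positive times -/
theorem leib {V : ℝ → H →L[ℂ] H} {Ω : H} {X Z : H →L[ℂ] H} {y k k1 k2 : H}
    (hV : ∀ t, V t ∈ unitary (H →L[ℂ] H)) (v0 : V 0 = 1) (hΩ : ∀ t, V t Ω = Ω)
    (hc : ∀ᶠ t in 𝓝[≥] (0 : ℝ), V t * star X * star (V t) * Z = Z * (V t * star X * star (V t)))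
    (d : HasDerivAt (fun t => V t (X y)) (Complex.I • k) 0)
    (d1 : HasDerivAt (fun t => V t (star X Ω)) (Complex.I • k1) 0)
    (d2 : HasDerivAt (fun t => V t y) (Complex.I • k2) 0) :
    inner ℂ (Z Ω) k = inner ℂ (Z (star X Ω)) k2 - inner ℂ (Z k1) y := by
  have p1 := (hasDerivAt_const (0 : ℝ) (Z Ω)).inner ℂ d
  have p2 := ((Z.restrictScalars ℝ).hasFDerivAt.comp_hasDerivAt (0 : ℝ) d1).inner ℂ d2
  have e : ∀ t, V t * star X * star (V t) * Z = Z * (V t * star X * star (V t)) →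
      inner ℂ (Z Ω) (V t (X y)) = inner ℂ (Z (V t (star X Ω))) (V t y) := fun t ht => by
    have u1 : ∀ z, star (V t) (V t z) = z := fun z => DFunLike.congr_fun (hV t).1 z
    have u2 : star (V t) Ω = Ω := by
      conv_lhs => rw [← hΩ t]
      exact u1 _
    have := DFunLike.congr_fun ht Ω
    simp only [ContinuousLinearMap.mul_apply, u2] at this
    rw [← this, ← si' (V t), u1, si, si]
  have q := (uniqueDiffOn_Ici (0 : ℝ) 0 Set.self_mem_Ici).eq_deriv _ p1.hasDerivWithinAt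
    (p2.hasDerivWithinAt.congr_of_eventuallyEq (hc.mono e)
      (e 0 (hc.self_of_nhdsWithin Set.self_mem_Ici)))
  simp only [Function.comp_apply, v0, ContinuousLinearMap.one_apply, inner_zero_left, add_zero,
    ContinuousLinearMap.coe_restrictScalars', map_smul, inner_smul_left, inner_smul_right,
    Complex.conj_I] at q
  linear_combination (-Complex.I) * q + (inner ℂ (Z Ω) k - inner ℂ (Z (star X Ω)) k2 +
    inner ℂ (Z k1) y) * Complex.I_mul_I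

end Vale.Agent.P352G
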