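import Vale.Agent.P352G87.Soft
import Vale.Agent.P352X.Api1
import Vale.Agent.P352X.Api1P

/-!
# P352G: a relation between generators passes from the even vectors to all vectors
-/

set_option linter.all false

open Filter Topology
open scoped ComplexConjugate

namespace Vale.Agent.P352G

open Vale.Agent.P352X

noncomputable section

variable {H : Type*} [NormedAddCommGroup H] [InnerProductSpace ℂ H] [CompleteSpace H]

/-- `X` is differentiable in norm under the group `W` -/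
def C1 (W : ℝ → H →L[ℂ] H) (X : H →L[ℂ] H) : Prop :=
  DifferentiableAt ℝ (fun t => W t * X * W (-t)) 0

section c1

variable {W : ℝ → H →L[ℂ] H} {X Y A B : H →L[ℂ] H} {Ω : H}

theorem C1.one (g : UG W) : C1 W 1 := by
  simp only [C1, mul_one, g.mul_inv]
  exact differentiableAt_const _

theorem C1.mul (g : UG W) (h : C1 W X) (h' : C1 W Y) : C1 W (X * Y) := by
  refine (DifferentiableAt.mul h h').congr_of_eventuallyEq (.of_forall fun t => ?_)
  show W t * (X * Y) * W (-t) = W t * X * W (-t) * (W t * Y * W (-t))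
  simp only [mul_assoc]
  rw [← mul_assoc (W (-t)) (W t), g.inv_mul, one_mul]

theorem C1.str (g : UG W) (h : C1 W X) : C1 W (star X) := by
  refine (DifferentiableAt.star h).congr_of_eventuallyEq (.of_forall fun t => ?_)
  show W t * star X * W (-t) = star (W t * X * W (-t))
  rw [star_mul, star_mul, g.star_eq, g.star_eq, neg_neg, mul_assoc]

theorem C1.cj (h : C1 W X) (hA : ∀ t, A * W t = W t * A) (hB : ∀ t, B * W t = W t * B) :
    C1 W (A * X * B) := by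
  refine ((DifferentiableAt.const_mul h A).mul_const B).congr_of_eventuallyEq
    (.of_forall fun t => ?_)
  show W t * (A * X * B) * W (-t) = A * (W t * X * W (-t)) * B
  simp only [mul_assoc]
  rw [hB, ← mul_assoc (W t) A, ← hA, mul_assoc]

theorem C1.add (z : ℂ) (h : C1 W X) (h' : C1 W Y) : C1 W (X + z • Y) := by
  refine (DifferentiableAt.add h (DifferentiableAt.const_smul h' z)).congr_of_eventuallyEq
    (.of_forall fun t => ?_)
  show W t * (X + z • Y) * W (-t) = W t * X * W (-t) + z • (W t * Y * W (-t))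
  rw [mul_add, add_mul, mul_smul_comm, smul_mul_assoc]

theorem C1.dm (h : C1 W X) (hΩ : ∀ t, W t Ω = Ω) : Dm W (X Ω) := by
  refine (((ContinuousLinearMap.apply ℂ H Ω).restrictScalars ℝ).differentiableAt.comp 0
    h).congr_of_eventuallyEq (.of_forall fun t => ?_)
  show W t (X Ω) = W t (X (W (-t) Ω))
  rw [hΩ]

theorem comm_star (g : UG W) (hA : ∀ t, A * W t = W t * A) (t : ℝ) :
    star A * W t = W t * star A := by
  have := congrArg star (hA (-t))
  rw [star_mul, star_mul, g.star_eq, neg_neg] at this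
  exact this.symm

end c1

/-- the data: `R` is the algebra of a small region, `M` the algebra of a wedge -/
structure Sf2 {ι : Type} (R M : VonNeumannAlgebra H) (Ω : H) (Γ : H →L[ℂ] H)
    (B P U : ℝ → H →L[ℂ] H) (K : ι → ℝ → H →L[ℂ] H) : Prop where
  g2 : Γ * Γ = 1
  gs : star Γ = Γ
  gv : Γ Ω = Ω
  gam : ∀ X ∈ R, Γ * X * Γ ∈ R
  sub : ∀ X ∈ R, X ∈ M
  uB : UG B
  uP : UG P
  uK : ∀ i, UG (K i)
  vB : ∀ t, B t Ω = Ω
  vP : ∀ t, P t Ω = Ω
  vK : ∀ i t, K i t Ω = Ω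
  gB : ∀ t, Γ * B t = B t * Γ
  gP : ∀ t, Γ * P t = P t * Γ
  uni : ∀ r, 0 < r → U r ∈ unitary (H →L[ℂ] H)
  vac : ∀ r, 0 < r → U r Ω = Ω
  gU : ∀ r, 0 < r → Γ * U r = U r * Γ
  UB : ∀ r, 0 < r → ∀ t, U r * B t = B t * U r
  UP : ∀ r, 0 < r → ∀ t, U r * P t = P t * U r
  UK : ∀ r, 0 < r → ∀ i t, U r * K i t = K i t * U r
  cj : ∀ r, 0 < r → ∀ X ∈ R, U r * X * star (U r) ∈ R
  wn : ∀ η w, inner ℂ Ω η = 0 → Tendsto (fun r => inner ℂ (U r η) w) atTop (𝓝 0)
  nv : ‖Ω‖ = 1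
  dz : Dense {z | ∃ Z ∈ M.commutant, Z Ω = z}
  da : Dense {z | ∃ X ∈ R, (C1 B X ∧ C1 P X) ∧ X Ω = z}
  lK : ∀ i, ∀ X ∈ R, ∀ᶠ t in 𝓝[≥] (0 : ℝ), K i t * X * K i (-t) ∈ M
  lP : ∀ X ∈ R, ∀ᶠ t in 𝓝[≥] (0 : ℝ), P t * X * P (-t) ∈ M
  dom : ∀ i, ∀ X ∈ R, Dm B (X Ω) → Dm P (X Ω) → Dm (K i) (X Ω)

theorem Sf2.all {ι : Type} [Fintype ι] {R M : VonNeumannAlgebra H} {Ω : H} {Γ : H →L[ℂ] H}
    {B P U : ℝ → H →L[ℂ] H} {K : ι → ℝ → H →L[ℂ] H} (h : Sf2 R M Ω Γ B P U K) (κ : ι → ℝ) (p : ℝ)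
    (ev : ∀ ψ, Γ ψ = ψ → (∀ i, Dm (K i) ψ) → Dm P ψ →
      ∑ i, (κ i : ℂ) • gen (K i) ψ = (p : ℂ) • gen P ψ) {ψ : H} (hK : ∀ i, Dm (K i) ψ)
    (hP : Dm P ψ) : ∑ i, (κ i : ℂ) • gen (K i) ψ = (p : ℂ) • gen P ψ := by
  let 𝒜 : Set (H →L[ℂ] H) := {X | X ∈ R ∧ C1 B X ∧ C1 P X}
  let a : H → H := fun v => ∑ i, (κ i : ℂ) • gen (K i) v - (p : ℂ) • gen P v
  have dP : ∀ X ∈ 𝒜, Dm P (X Ω) := fun X hX => hX.2.2.dm h.vP
  have dK : ∀ X ∈ 𝒜, ∀ i, Dm (K i) (X Ω) := fun X hX i =>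
    h.dom i X hX.1 (hX.2.1.dm h.vB) (dP X hX)
  have sym : ∀ v w, (∀ i, Dm (K i) v) → Dm P v → (∀ i, Dm (K i) w) → Dm P w →
      inner ℂ (a v) w = inner ℂ v (a w) := fun v w a1 a2 a3 a4 => by
    simp only [a, inner_sub_left, inner_sub_right, sum_inner, inner_sum, inner_smul_left,
      inner_smul_right, Complex.conj_ofReal, h.uP.symm a2.gn a4.gn,
      fun i => (h.uK i).symm (a1 i).gn (a3 i).gn]
  have mu : ∀ X ∈ 𝒜, ∀ Y ∈ 𝒜, X * Y ∈ 𝒜 := fun X hX Y hY =>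
    ⟨mul_mem hX.1 hY.1, hX.2.1.mul h.uB hY.2.1, hX.2.2.mul h.uP hY.2.2⟩
  have st : ∀ X ∈ 𝒜, star X ∈ 𝒜 := fun X hX => ⟨star_mem hX.1, hX.2.1.str h.uB, hX.2.2.str h.uP⟩
  have cj : ∀ r, 0 < r → ∀ X ∈ 𝒜, U r * X * star (U r) ∈ 𝒜 := fun r hr X hX =>
    ⟨h.cj r hr X hX.1, hX.2.1.cj (h.UB r hr) (comm_star h.uB (h.UB r hr)),
      hX.2.2.cj (h.UP r hr) (comm_star h.uP (h.UP r hr))⟩
  have da : Dense {z | ∃ X ∈ 𝒜, X Ω = z} := h.da.mono fun z q => q.elim fun X q => ⟨X, ⟨q.1, q.2.1⟩, q.2.2⟩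
  have n1 : inner ℂ Ω Ω = (1 : ℂ) := by rw [inner_self_eq_norm_sq_to_K, h.nv]; simp
  have e0 : ∀ X ∈ 𝒜, Γ * X = X * Γ → a (X Ω) = 0 := fun X hX e =>
    sub_eq_zero.2 (ev _ (by rw [← ContinuousLinearMap.mul_apply, e, ContinuousLinearMap.mul_apply,
      h.gv]) (dK X hX) (dP X hX))
  have S : Soft 𝒜 (M.commutant : Set (H →L[ℂ] H)) Ω Γ a U :=
    { one := ⟨one_mem _, C1.one h.uB, C1.one h.uP⟩
      mul := mu
      str := st
      da := da
      dz := h.dz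
      com := fun X hX Z hZ => comm_mul (h.sub X hX.1) hZ
      gs := h.gs
      uni := h.uni
      vac := h.vac
      gU := h.gU
      cj := cj
      cov := fun r hr X hX => by
        simp only [a, map_sub, map_sum, map_smul, ((dP X hX).comm (h.UP r hr)).2,
          fun i => ((dK X hX i).comm (h.UK r hr i)).2]
      wn := fun η w => by
        have := (h.wn (η - inner ℂ Ω η • Ω) w (by
          rw [inner_sub_right, inner_smul_right, n1, mul_one, sub_self])).star.add_const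
          (inner ℂ w Ω * inner ℂ Ω η)
        rw [star_zero, zero_add] at this
        refine this.congr' ?_
        filter_upwards [eventually_gt_atTop 0] with r hr
        rw [RCLike.star_def, inner_conj_symm, map_sub, map_smul, h.vac r hr, inner_sub_right,
          inner_smul_right]
        ring
      sym := fun X hX Y hY => sym _ _ (dK X hX) (dP X hX) (dK Y hY) (dP Y hY)
      lei := fun X hX Y hY Z hZ => by
        have l : ∀ V : ℝ → H →L[ℂ] H, UG V → (∀ t, V t Ω = Ω) →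
            (∀ᶠ t in 𝓝[≥] (0 : ℝ), V t * star X * V (-t) ∈ M) → (∀ X ∈ 𝒜, Dm V (X Ω)) →
            inner ℂ (Z Ω) (gen V (X (Y Ω))) = inner ℂ (Z (star X Ω)) (gen V (Y Ω)) -
              inner ℂ (Z (gen V (star X Ω))) (Y Ω) := fun V g v l d =>
          leib g.uni g.zero' v (l.mono fun t ht => by rw [g.star_eq]; exact comm_mul ht hZ)
            (d _ (mu X hX Y hY)).gn (d _ (st X hX)).gn (d Y hY).gn
        have l1 := fun i => l (K i) (h.uK i) (h.vK i) (h.lK i _ (star_mem hX.1))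
          fun X hX => dK X hX i
        have l2 := l P h.uP h.vP (h.lP _ (star_mem hX.1)) dP
        simp only [a, inner_sub_left, inner_sub_right, sum_inner, inner_sum, inner_smul_left,
          inner_smul_right, Complex.conj_ofReal, map_sub, map_sum, map_smul, l1, l2, mul_sub,
          Finset.sum_sub_distrib]
        ring
      ev := e0 }
  refine sub_eq_zero.1 (da.eq_zero_of_inner_right ℂ ?_)
  rintro _ ⟨X, hX, rfl⟩
  have m : ∀ z : ℂ, X + z • (Γ * X * Γ) ∈ 𝒜 := fun z =>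
    ⟨add_mem hX.1 (smul_mem_vn z (h.gam X hX.1)), hX.2.1.add z (hX.2.1.cj h.gB h.gB),
      hX.2.2.add z (hX.2.2.cj h.gP h.gP)⟩
  have g3 : Γ * (Γ * X * Γ) = X * Γ := by rw [← mul_assoc, ← mul_assoc, h.g2, one_mul]
  have g4 : Γ * X * Γ * Γ = Γ * X := by rw [mul_assoc, h.g2, mul_one]
  have z1 := e0 _ (m 1) (by rw [one_smul, mul_add, add_mul, g3, g4, add_comm])
  have z2 := S.odd (m (-1)) (by
    rw [neg_one_smul, mul_add, add_mul, mul_neg, neg_mul, g3, g4, neg_add, neg_neg, add_comm])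
  have s1 := sym _ ψ (dK _ (m 1)) (dP _ (m 1)) hK hP
  have s2 := sym _ ψ (dK _ (m (-1))) (dP _ (m (-1))) hK hP
  rw [z1, inner_zero_left] at s1
  rw [z2, inner_zero_left] at s2
  simp only [ContinuousLinearMap.add_apply, ContinuousLinearMap.smul_apply, inner_add_left,
    one_smul, neg_one_smul, ContinuousLinearMap.neg_apply, inner_neg_left] at s1 s2
  show inner ℂ (X Ω) (a ψ) = 0
  linear_combination (-1 / 2 : ℂ) * s1 - (1 / 2 : ℂ) * s2

end

end Vale.Agent.P352G
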