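import Vale.Agent.P352G87.Pub
import Vale.Agent.P352X.EH.W

namespace Vale.Agent.P352G

open Vale.Agent.P352.GF Vale.Agent.P352.H246 Vale.Agent.P352.H496 Vale.Agent.P352.H15
open Vale.Agent.P352.H755 Vale.Agent.P352.BW Vale.Agent.P352X
open Vale.Agent.P352.ND (PCh)
open UniformSpace (Completion)

universe u

/-- the conclusion of the target theorem -/
def Concl {D : Type u} [NormedAddCommGroup D] [InnerProductSpace ℂ D] (Q : Theory D)
    (T' : Ix → Ix → Fld D) (Γ : Completion D →L[ℂ] Completion D)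
    (N : Set V → VonNeumannAlgebra (Completion D)) : Prop :=
    ∃ (D' : Submodule ℂ (Completion D)) (Q' : Theory D') (G' : D' → D') (e : Fld D → Fld D')
      (L : Fld D'), ExtF Q Γ Q' G' e ∧ AfW N Q' (↑) ∧ Q'.IsStress (fun m n => e (T' m n)) ∧
      Q'.IsScalar L 2 ∧
      (∀ f v, IsTest f → tr (fun m n => e (T' m n)) f v = (3 : ℂ) • L (box f) v) ∧
      ∀ Q'' : Theory D', IsEnl Q' Q'' → IsImpr Q'' (fun m n => e (T' m n))
        (improve (fun m n => e (T' m n)) L) ∧ ConfAct Q'' (improve (fun m n => e (T' m n)) L) ∧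
        (Gr Q'' G' → CFS Q'' G' (improve (fun m n => e (T' m n)) L) ∧
        ∀ B, Q'.fld B → ∃ (n : ℕ) (p : Fin n → Bool) (C : Fin n → Fld D'),
          (∀ i, DescS Q'' G' (improve (fun m n => e (T' m n)) L) (p i) (C i)) ∧
          ∀ f v, IsTest f → B f v = ∑ i, C i f v)

/-- the target theorem -/
def Target (D : Type u) [NormedAddCommGroup D] [InnerProductSpace ℂ D] : Prop := ∀ (Q : Theory D)
    (G : D → D) (T : Ix → Ix → Fld D) (_ : Stress0 Q T) (A : (V → V) → D → D) (_ : PCh Q T A)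
    (_ : MfAll Q) (_ : FSL Q) (_ : NoLog Q T) (Γ : Completion D →L[ℂ] Completion D)
    (N : Set V → VonNeumannAlgebra (Completion D)) (_ : LNg Q G A Γ N) (_ : L.UVac Q),
    ∃ T', Q.IsStress T' ∧ PCh Q T' A ∧ Concl Q T' Γ N

end Vale.Agent.P352G
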