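import Vale.Agent.P352G87.Tgt
import Vale.Agent.P352NA.XT

/-!
# P352G: from the extension with the local potential to the conclusion
-/

set_option linter.all false

open Filter Topology
open scoped ComplexConjugate

namespace Vale.Agent.P352G

open Vale.Agent.P352X Vale.Agent.P352X.EB Vale.Agent.P352X.EG
open Vale.Agent.P352 Vale.Agent.P352.GF Vale.Agent.P352.BW Vale.Agent.P352.H246
open Vale.Agent.P352.H496 Vale.Agent.P352.H755 Vale.Agent.P352.H15
open Vale.Agent.P352.SubConf (IsAdj)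
open Vale.Agent.P352NA (Cyc)
open Vale.Agent.P352X.EB.NA (cs cs_dense ext_C cyc_vac cyc_fld)
open UniformSpace (Completion)

noncomputable section

universe u

variable {D : Type u} [NormedAddCommGroup D] [InnerProductSpace ℂ D]

/-- the graded extension with the local potential -/
def FinG (Q : Theory D) (T : Ix → Ix → Fld D) (Γ : Completion D →L[ℂ] Completion D)
    (N : Set V → VonNeumannAlgebra (Completion D)) : Prop :=
  ∃ (D' : Submodule ℂ (Completion D)) (Q' : Theory D') (G' : D' → D') (e : Fld D → Fld D')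
    (L : Fld D'), ExtF Q Γ Q' G' e ∧ AfW N Q' (↑) ∧ Q'.IsStress (fun m n => e (T m n)) ∧
    Q'.IsScalar L 2 ∧ (∀ f v, IsTest f →
      GF.tr (fun m n => e (T m n)) f v = (3 : ℂ) • L (box f) v) ∧
    ∀ A, Q'.fld A → ∃ (n : ℕ) (B : Fin n → Fld D'), (∀ i, B i = L ∨ ∃ C, Q.fld C ∧
      ∀ f v, IsTest f → B i f v = e C f v) ∧ ∀ f v, IsTest f → A f v = ∑ i, B i f v

/-- mixing for even vectors -/
def MixE (Q : Theory D) (Γ : Completion D →L[ℂ] Completion D) : Prop :=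
  ∀ ξ w : Completion D, Γ ξ = ξ → Tendsto (fun r : ℝ =>
    inner ℂ ξ (Ue Q (Real.sqrt (r * 1)) (TPD.Lsc r 1) 0 w)) (𝓝[>] 0)
      (𝓝 (inner ℂ ξ (om Q) * inner ℂ (om Q) w))

/-- the fields are covariant under a similitude without translation -/
def CvA (Q : Theory D) (s : ℝ) (L : Ix → V) : Prop := ∀ A, Q.fld A →
  ∃ (ι : Type) (_ : Fintype ι) (κ : ι → ℂ) (C : ι → Fld D), (∀ i, Q.fld (C i)) ∧
    ∀ f w, IsTest f → A f (Q.U s L 0 w) = ∑ i, κ i • Q.U s L 0 (C i (fun x => f (sim s L 0 x)) w)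

theorem cva_dil {Q : Theory D} (hF : FSL Q) {s : ℝ} (hs : 0 < s) : CvA Q s GF.one := fun A hA => by
  obtain ⟨F, C, h⟩ := hF A hA
  exact ⟨F, inferInstance, _, fun i => C i, fun i => (h.1 i).1, fun f w hf =>
    (h.2 s f w hs hf).trans (Finset.sum_coe_sort _ _).symm⟩

theorem cva_lor {Q : Theory D} (hM : MfAll Q) {L : Ix → V} (hL : IsLor L) : CvA Q 1 L :=
  fun A hA => by
    obtain ⟨n, B, h1, h2⟩ := hM A hA
    choose k Φ a hΦ e using h1
    refine ⟨Σ i, Fin (k i).n, inferInstance, fun p => (k p.1).ρ L p.2 (a p.1), fun p => Φ p.1 p.2,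
      fun p => (hΦ p.1).1 _, fun f w hf => ?_⟩
    rw [h2 f _ hf, Fintype.sum_sigma]
    exact Finset.sum_congr rfl fun i _ => by rw [e i, (hΦ i).2 _ L f w hL hf]

variable {c : Cg D}

/-- the grading as a linear map -/
def gl (c : Cg D) : D →ₗ[ℂ] D := ⟨⟨c.G, Bas.gadd⟩, Bas.gsmul⟩

theorem cyc_G {w : D} (h : Cyc c.Q w) : Cyc c.Q (c.G w) := by
  refine (h (cs c.Q ⊓ (cs c.Q).comap (gl c)) ⟨cyc_vac, ?_⟩ fun A f v hA hf hv =>
    ⟨cyc_fld hA hf hv.1, ?_⟩).2
  · show Cyc c.Q (c.G _)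
    rw [c.hN.vac]
    exact cyc_vac
  · obtain ⟨C, C', a1, a2, e⟩ := c.hN.split A hA
    show c.G (A f v) ∈ cs c.Q
    rw [e f v hf, Bas.gadd, ← c.hN.bose C f v a1 hf, ← neg_neg (c.G (C' f v)), ← a2.2 f v hf]
    exact add_mem (cyc_fld (c.Q.bose_fld _ a1) hf hv.2) (neg_mem (cyc_fld a2.1 hf hv.2))

theorem cyc_U {s : ℝ} {L : Ix → V} (hs : 0 < s) (hL : IsLor L) (hc : CvA c.Q s⁻¹ (linv L)) {w : D}
    (h : Cyc c.Q w) : Cyc c.Q (c.Q.U s L 0 w) := by
  have hs' := inv_pos.2 hs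
  have hL' := isLor_linv hL
  obtain ⟨P, p1, p2, p3, p4⟩ : ∃ P : D → D, (∀ v, Cyc c.Q v → Cyc c.Q (P v)) ∧ (∀ v, P (P v) = v) ∧
      (∀ v, c.Q.U s L 0 (P v) = P (c.Q.U s L 0 v)) ∧
      ∀ v, c.Q.U s L 0 (c.Q.U s⁻¹ (linv L) 0 v) = P v := by
    have m := c.hN.mul s L 0 s⁻¹ (linv L) 0 hs hs' hL hL'
    rw [linv_id hL, mul_inv_cancel₀ hs.ne', Grp.sim_zero] at m
    have z : ∀ v, c.Q.U 1 GF.one 0 v = v := fun v => U1_zero_all (Q := c.Q) v
    rcases m with m | m
    · exact ⟨id, fun _ h => h, fun _ => rfl, fun _ => rfl, fun v => (m v).trans (z v)⟩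
    · exact ⟨c.G, fun _ => cyc_G, c.hN.inv, fun v => c.hN.GU _ _ _ v hs hL,
        fun v => (m.2.2 v).trans (by rw [z])⟩
  let u := NA.ul c.Q ⟨s, L, 0, hs, hL⟩
  have inj : ∀ x y, c.Q.U s L 0 x = c.Q.U s L 0 y → x = y := fun x y e => by
    have : u (x - y) = 0 := by rw [map_sub]; exact sub_eq_zero.2 e
    have k := c.Q.U_inner s L 0 (x - y) (x - y) hs hL
    rw [show c.Q.U s L 0 (x - y) = 0 from this, inner_zero_left] at k
    exact sub_eq_zero.1 (inner_self_eq_zero.1 k.symm)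
  refine h ((cs c.Q).comap u) ?_ fun A f v hA hf hv => ?_
  · show Cyc c.Q (c.Q.U _ _ _ _)
    rw [c.Q.U_vac _ _ _ hs hL]
    exact cyc_vac
  obtain ⟨ι, _, κ, C, h1, h2⟩ := hc A hA
  have e : c.Q.U s⁻¹ (linv L) 0 (P (c.Q.U s L 0 v)) = v := inj _ _ (by rw [p4, p2])
  have := h2 f (P (c.Q.U s L 0 v)) hf
  rw [e] at this
  rw [Submodule.mem_comap, this, map_sum]
  refine Submodule.sum_mem _ fun i _ => ?_
  rw [map_smul]
  refine Submodule.smul_mem _ _ ?_
  show Cyc c.Q (c.Q.U _ _ _ _)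
  rw [p4]
  exact p1 _ (cyc_fld (h1 i) (Ap.test_sim hs' hL' 0 hf) (p1 _ hv))

theorem linv_one : linv GF.one = GF.one := by
  have := linv_id H496.isLor_one
  simpa only [H26.sim_one0] using this

section ext

variable {D' : Submodule ℂ (Completion D)} {Q' : Theory D'} {G' : D' → D'} {e : Fld D → Fld D'}

theorem ext_aff {Q : Theory D} {Γ} (E : ExtF Q Γ Q' G' e) {B B' : Fld D} {f : Fn} {w : D}
    (a : Q.fld B) (b : Q.fld B') (d : IsAdj B B') (hf : IsTest f) (v : D') (h : Cyc Q w) :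
    inner ℂ (e B f v : Completion D) (w : Completion D) =
      inner ℂ (v : Completion D) (B' (bar f) w : Completion D) := by
  rw [← E.agree B' _ ⟨_, E.mem w h⟩ w b (Ap.test_bar hf) h rfl]
  exact E.adj B B' a b d f v ⟨_, E.mem w h⟩ hf

/-- linear relations pass to the extension -/
theorem ext_sum {Q : Theory D} {Γ} (E : ExtF Q Γ Q' G' e) {B : Fld D} {ι : Type} [Fintype ι]
    {C : ι → Fld D} (hB : Q.fld B) (hC : ∀ i, Q.fld (C i))
    (h : ∀ f v, IsTest f → B f v = ∑ i, C i f v) {f : Fn} (hf : IsTest f) (v : D') :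
    e B f v = ∑ i, e (C i) f v := ext_C Q fun y hy => by
  obtain ⟨B', b, d⟩ := Q.adj B hB
  choose C' b' d' using fun i => Q.adj _ (hC i)
  have : B' (bar f) y = ∑ i, C' i (bar f) y := ext_inner_left ℂ fun z => by
    rw [← d f z y hf, h f z hf, sum_inner, inner_sum]
    exact Finset.sum_congr rfl fun i _ => d' i f z y hf
  rw [ext_aff E hB b d hf v hy, this, STRa.coe_sum, inner_sum, Submodule.coe_sum, sum_inner]
  exact Finset.sum_congr rfl fun i _ => (ext_aff E (hC i) (b' i) (d' i) hf v hy).symm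

variable (t : EG.E0 c) (E : ExtF c.Q c.Γ Q' G' e)
include t E

/-- covariance relations pass to the extension -/
theorem ext_cov {n : ℕ} {B : Fld D} {C : Fin n → Fld D} {κ : Fin n → ℂ} {s : ℝ} {L : Ix → V}
    (hs : 0 < s) (hL : IsLor L) (hc : CvA c.Q s⁻¹ (linv L)) (hB : c.Q.fld B)
    (hC : ∀ i, c.Q.fld (C i)) (h : ∀ f v, IsTest f → B f (c.Q.U s L 0 v) =
      ∑ i, κ i • c.Q.U s L 0 (C i (fun x => f (sim s L 0 x)) v)) {f : Fn} (hf : IsTest f)
    (v : D') : e B f (Q'.U s L 0 v) =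
      ∑ i, κ i • Q'.U s L 0 (e (C i) (fun x => f (sim s L 0 x)) v) := by
  obtain ⟨B', b, hB'⟩ := c.Q.adj B hB
  choose C' b' hC' using fun i => c.Q.adj (C i) (hC i)
  have hg := Ap.test_sim hs hL 0 hf
  have h0 := fun w => t.bas.sadj s L 0 n κ B B' C C' hs hL hB' hC' h _ w (Ap.test_bar hf)
  have hU := t.sg.uni ⟨⟨s, L, 0, hs, hL⟩, false⟩
  let W := Ug c.Q s L 0
  have hW : ∀ x y, inner ℂ (W x) (W y) = inner ℂ x y :=
    ContinuousLinearMap.inner_map_map_of_mem_unitary hU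
  refine EB.STRa.ext_dense (u := fun w : cs c.Q => W (w : D))
    ((Function.Surjective.denseRange fun z => ⟨star W z, DFunLike.congr_fun hU.2 z⟩).comp
      (cs_dense c.Q) W.continuous) fun w => ?_
  have h2 : ∀ z : D', (Q'.U s L 0 z : Completion D) = W z := fun z =>
    (E.U s L 0 z hs hL).trans (Ug_apply _ hs hL 0 _).symm
  have h3 : ∀ z : D, ((c.Q.U s L 0 z : D) : Completion D) = W z := fun z =>
    (t.sg.coe s L 0 z hs hL).symm
  conv_lhs => rw [← h3, ext_aff E hB b hB' hf _ (cyc_U hs hL hc w.2), h0, h2]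
  simp only [Fin'.coe_sum, Completion.coe_smul, Submodule.coe_sum, Submodule.coe_smul, inner_sum,
    sum_inner, inner_smul_left, inner_smul_right, h2, h3, hW,
    fun i => ext_aff E (hC i) (b' i) (hC' i) hg v w.2]
  rfl

theorem ext_odd {B : Fld D} (h : Fer c.Q c.G B) : Fer Q' G' (e B) := by
  refine ⟨E.fld _ h.1, fun f v hf => ext_C c.Q fun y hy => ?_⟩
  obtain ⟨B', b, hA⟩ := c.Q.adj B h.1
  have pa := t.bas.padj true B B' hA (fun f v hf => (h.2 f v hf).trans (neg_one_smul ℂ _).symm) _ y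
    (Ap.test_bar hf)
  rw [show sg true = -1 from rfl, neg_one_smul] at pa
  rw [ext_aff E h.1 b hA hf _ hy, Submodule.coe_neg, inner_neg_left, E.G, E.G, ← t.sg.gs,
    star_inner, star_inner, c.hN.ext, c.hN.ext, ext_aff E h.1 b hA hf _ (cyc_G hy), pa,
    Completion.coe_neg, inner_neg_right, neg_neg]

variable {Q'' : Theory D'} (n : IsEnl Q' Q'') (hM : MfAll c.Q) (hF : FSL c.Q)
include n hF

/-- scaling laws pass to the extension -/
theorem ext_scl {B : Fld D} (hB : c.Q.fld B) {F : Finset (ℂ × ℕ)} {C : ℂ × ℕ → Fld D}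
    (h : Scl c.Q B F C) (hb : Q''.bose (e B) → c.Q.bose B) : Scl Q'' (e B) F fun p => e (C p) := by
  refine ⟨fun p => ⟨n.fld _ (E.fld _ (h.1 p).1), fun b => n.bose _ (E.bos _ ((h.1 p).2 (hb b)))⟩,
    fun s f v hs hf => ?_⟩
  let q := F.equivFin.symm
  rw [n.U, ← Finset.sum_coe_sort, ← q.sum_comp]
  exact ext_cov t E hs H496.isLor_one (linv_one.symm ▸ cva_dil hF (inv_pos.2 hs)) hB
    (fun i => (h.1 _).1) (fun g w hg => by
    rw [h.2 s g w hs hg, ← Finset.sum_coe_sort, ← q.sum_comp]) hf v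

include hM

theorem desc_cmp (g : Gr Q'' G') {τ : Ix → Ix → Fld D'}
    (h : ∀ (p : Bool) (k : Rp) (Φ : Fin k.n → Fld D') μ, (∀ ν, ∃ F B, Scl Q'' (Φ ν) F B) →
      IsMl Q'' k Φ → (∀ a, if p then Fer Q'' G' (Φ a) else Q''.bose (Φ a)) →
      DescS Q'' G' τ p (Φ μ)) {p : Bool} {C : Fld D} (hC : H.Cmp c p C) :
    ∃ C', DescS Q'' G' τ p C' ∧ ∀ f v, IsTest f → e C f v = C' f v := by
  obtain ⟨k, Φ, a, m, rfl⟩ := hC
  have key : ∀ b, ∃ B, c.Q.fld B ∧ (if p then Fer Q'' G' (e B) else Q''.bose (e B)) ∧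
      (∀ f v, IsTest f → Φ b f v = B f v) ∧ ∃ F C, Scl Q'' (e B) F C := fun b => by
    cases p
    · obtain ⟨B, h1, h2⟩ := Bas.even (m.mf.1 b) (m.par b)
      obtain ⟨F, C, h3⟩ := hF B (c.Q.bose_fld _ h1)
      exact ⟨B, c.Q.bose_fld _ h1, n.bose _ (E.bos _ h1), h2, F, _,
        ext_scl t E n hF (c.Q.bose_fld _ h1) h3 fun _ => h1⟩
    · have h1 := ext_odd t E (Bas.odd (m.mf.1 b) (m.par b))
      refine ⟨Φ b, m.mf.1 b, ⟨n.fld _ h1.1, h1.2⟩, fun _ _ _ => rfl, ?_⟩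
      by_cases hb : Q''.bose (e (Φ b))
      · refine ⟨∅, fun _ => e (Φ b), fun _ => ⟨n.fld _ h1.1, id⟩, fun s f v _ hf => ?_⟩
        have z : G' (e (Φ b) f (G' (Q''.U s GF.one 0 v))) = 0 :=
          (smul_eq_zero.1 ((two_smul ℂ _).trans (add_eq_zero_iff_eq_neg.2
            ((g.bose _ f _ hb hf).symm.trans (h1.2 f _ hf))))).resolve_left two_ne_zero
        rwa [← g.bose _ f _ hb hf, g.inv] at z
      · obtain ⟨F, C, h3⟩ := hF _ (m.mf.1 b)
        exact ⟨F, _, ext_scl t E n hF (m.mf.1 b) h3 fun a => absurd a hb⟩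
  choose Ψ h1 h2 h3 h4 using key
  refine ⟨e (Ψ a), h p k (fun b => e (Ψ b)) a h4 (fun b L f v hL hf => ?_) h2,
    fun f v hf => ?_⟩
  · rw [n.U]
    exact ext_cov t E one_pos hL (inv_one (G := ℝ).symm ▸ cva_lor hM (isLor_linv hL)) (h1 b) h1
      (fun g w hg => by
      simp only [← h3 _ _ _ hg, ← h3 _ _ _ (Ap.test_sim one_pos hL 0 hg), m.mf.2 b L g w hL hg])
      hf v
  · have := ext_sum E (ι := Unit) (C := fun _ => Ψ a) (m.mf.1 a) (fun _ => h1 a)
      (fun g w hg => by rw [h3 _ _ _ hg]; simp) hf v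
    simpa using this

end ext

theorem concl_of (c : Cg D) {T : Ix → Ix → Fld D} (hM : MfAll c.Q) (hF : FSL c.Q)
    (fin : FinG c.Q T c.Γ c.N) (mix : MixE c.Q c.Γ) : Concl c.Q T c.Γ c.N := by
  have t := e0_thm c
  obtain ⟨D', Q', G', e, L, h1, h0, h2, h3, h4, h6⟩ := fin
  refine ⟨D', Q', G', e, L, h1, h0, h2, h3, h4, fun Q'' n => ?_⟩
  obtain ⟨h7, h8⟩ := scal_row D' Q' _ L h2 h3 h4 Q'' n
  refine ⟨h7, h8, fun g => ?_⟩
  have hT'' := H746.isStress_enl n h2
  have hL'' := scalar_enl n h3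
  let M : D' →ₗ[ℂ] D' :=
    { toFun := G'
      map_add' := fun v w => ext_inner_right ℂ fun y => by simp only [g.herm, inner_add_left]
      map_smul' := fun z v => ext_inner_right ℂ fun y => by
        simp only [g.herm, inner_smul_left, RingHom.id_apply] }
  have gt : ∀ m n f v, IsTest f → improve (fun m n => e (T m n)) L m n f (G' v) =
      G' (improve (fun m n => e (T m n)) L m n f v) := fun m n f v hf => by
    show _ = M _
    simp only [improve, map_add, map_sub, map_smul, map_sum, g.bose _ _ v (hT''.bose m n) hf,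
      fun k l => g.bose _ _ v hL''.1 (Ap.test_pd k (Ap.test_pd l hf))]
    rfl
  have hv : (Q''.vac : Completion D) = c.Om := by rw [n.vac]; exact h1.vac
  have gv : G' Q''.vac = Q''.vac := Subtype.ext (by rw [h1.G, hv, t.sg.gv])
  let k : CA.G.Cx D' := ⟨Q'', _, G', isT_of_impr h7 hT'',
    fun m n k l f g v hf hg h => sub_eq_zero.1 (h7.self m n k l f g v hf hg h), h7.cov,
    ⟨_, hT''.bose o o⟩, g.inv, g.herm, gt, g.GU,
    fun C hC => by
      obtain ⟨C1, C2, a1, a2, e⟩ := g.split C hC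
      refine ⟨2, ![1, -1], ![C1, C2], fun j => ?_, fun k v hk => ?_⟩
      · fin_cases j
        exacts [Q''.bose_fld _ a1, a2.1]
      · rw [e k _ hk, g.bose C1 k v a1 hk, a2.2 k v hk, show G' _ = M _ from rfl, map_add, map_neg]
        simp [M, g.inv],
    g.mul, fun F w hF => by
      have b2 : G' (smt (improve (fun m n => e (T m n)) L) F Q''.vac) =
          smt (improve (fun m n => e (T m n)) L) F Q''.vac := by
        show M _ = _
        simp only [smt, map_sum]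
        refine Finset.sum_congr rfl fun m _ => Finset.sum_congr rfl fun n _ => ?_
        show G' _ = _
        rw [← gt _ _ _ _ (hF m n).isTest, gv]
      have b3 := mix _ w ((h1.G _).symm.trans (congrArg _ b2))
      rw [show om c.Q = (Q''.vac : Completion D) from hv.symm, ← Submodule.coe_inner,
        ← Submodule.coe_inner] at b3
      refine b3.congr' (eventually_nhdsWithin_of_forall fun r hr => ?_)
      obtain ⟨p1, p2⟩ := CA.lsc_pos hr
      show inner ℂ _ (Ue _ _ _ _ _) = inner ℂ _ (Q''.U _ _ _ _)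
      rw [← h1.U _ _ _ _ p1 p2, n.U]
      rfl⟩
  obtain ⟨x, f0, al⟩ := CA.G.all_thm k
  have tl : CA.G.Tl k := fun _ _ => CA.G.clf k g
  have cf : CFS Q'' G' (improve (fun m n => e (T m n)) L) := CA.G.cfs' al tl
  refine ⟨cf, fun B hB => ?_⟩
  obtain ⟨m, C, hC, h⟩ := h6 B hB
  have key : ∀ i, ∃ (r : ℕ) (p : Fin r → Bool) (C' : Fin r → Fld D'),
      (∀ j, DescS Q'' G' (improve (fun m n => e (T m n)) L) (p j) (C' j)) ∧
      ∀ f v, IsTest f → C i f v = ∑ j, C' j f v := fun i => by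
    rcases hC i with h | ⟨C', a, b⟩
    · exact ⟨1, fun _ => false, fun _ => L, fun _ => desc_scal cf hL'', fun _ _ _ => by simp [h]⟩
    · obtain ⟨r, q, hq⟩ := H.md t hM C' a
      choose C'' a1 a2 using fun j => desc_cmp t h1 n hM hF g (CA.G.descM al tl) (q j).h
      refine ⟨r, _, C'', a1, fun f v hf => (b f v hf).trans ?_⟩
      rw [ext_sum h1 a (fun j => let ⟨_, _, _, m, e⟩ := (q j).h; e ▸ m.mf.1 _) hq hf v]
      exact Finset.sum_congr rfl fun j _ => a2 j f v hf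
  choose r p C' b1 b2 using key
  let E := (Fintype.equivFin (Σ i, Fin (r i))).symm
  refine ⟨_, fun j => p (E j).1 (E j).2, fun j => C' (E j).1 (E j).2, fun j => b1 _ _,
    fun f v hf => (h f v hf).trans ?_⟩
  rw [E.sum_comp fun j => C' j.1 j.2 f v, Fintype.sum_sigma]
  exact Finset.sum_congr rfl fun i _ => b2 i f v hf

end

end Vale.Agent.P352G
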