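import Vale.Agent.P352G87.Top1
import Vale.Agent.P352G24.Trf

/-!
# P352G: back from the re-signed theory, and the target theorem from the rows
-/

set_option linter.all false

open Filter Topology
open scoped ComplexConjugate

namespace Vale.Agent.P352G

open Vale.Agent.P352X Vale.Agent.P352X.EG
open Vale.Agent.P352 Vale.Agent.P352.GF Vale.Agent.P352.BW Vale.Agent.P352.H246
open Vale.Agent.P352.H496 Vale.Agent.P352.H755 Vale.Agent.P352.H15
open Vale.Agent.P352G24
open UniformSpace (Completion)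

noncomputable section

universe u

variable {D : Type u} [NormedAddCommGroup D] [InnerProductSpace ℂ D]

/-- the grading as a linear map -/
def grL {Q : Theory D} {G : D → D} (g : Gr Q G) : D →ₗ[ℂ] D where
  toFun := G
  map_add' := fun v w => ext_inner_right ℂ fun y => by simp only [g.herm, inner_add_left]
  map_smul' := fun z v => ext_inner_right ℂ fun y => by
    simp only [g.herm, inner_smul_left, RingHom.id_apply]

/-- the theory with re-signed similitudes -/
def rsT {Q : Theory D} {G : D → D} (g : Gr Q G) (gv : G Q.vac = Q.vac) (ε : (Ix → V) → Bool)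
    (h : ε GF.one = false) : Theory D :=
  { Q with
    U := fun s L a v => cond (ε L) (G (Q.U s L a v)) (Q.U s L a v)
    U_inner := fun s L a v w hs hL => by
      cases ε L
      · exact Q.U_inner s L a v w hs hL
      · exact (g.herm _ _).trans (by rw [cond_true, g.inv]; exact Q.U_inner s L a v w hs hL)
    U_vac := fun s L a hs hL => by rw [Q.U_vac s L a hs hL, gv, Bool.cond_self]
    transl := fun A a f v hA hf => by
      rw [h]
      exact Q.transl A a f v hA hf
    spectrum := fun v => by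
      rw [h]
      exact Q.spectrum v }

theorem cov_rs {Q : Theory D} {G : D → D} (g : Gr Q G) {B : Fld D} (hB : Q.bose B) {f : Fn}
    (hf : IsTest f) (ε : Bool) {ι : Type*} (F : Finset ι) (κ : ι → ℂ) (x : D) (y : ι → D)
    (h : B f x = ∑ i ∈ F, κ i • y i) :
    B f (cond ε (G x) x) = ∑ i ∈ F, κ i • cond ε (G (y i)) (y i) := by
  cases ε
  · exact h
  · show B f (G x) = _
    rw [g.bose B f x hB hf, h]
    exact (map_sum (grL g) _ _).trans (Finset.sum_congr rfl fun i _ => map_smul (grL g) _ _)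

variable [GrD D] {Q Q' : Theory D} {A : (V → V) → D → D}
  {N : Set V → VonNeumannAlgebra (Completion D)}

theorem ue_rs (hN : LNg Q GrD.G A (Gm D) N) {e : Bool} {s : ℝ} {L : Ix → V} {a : V} (hs : 0 < s)
    (hL : IsLor L) (h : ∀ v, Q'.U s L a v = cond e (Gd (Q.U s L a v)) (Q.U s L a v))
    (z : Completion D) : Ue Q' s L a z = cond e (Gm D (Ue Q s L a z)) (Ue Q s L a z) := by
  cases e
  · refine Completion.induction_on z (isClosed_eq (ue_cont _ _ _) (ue_cont _ _ _)) fun v => ?_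
    rw [ue_coe hs hL, h]
    exact (ue_coe hs hL _ _).symm
  · refine Completion.induction_on z (isClosed_eq (ue_cont _ _ _)
      ((Gm D).continuous.comp (ue_cont _ _ _))) fun v => ?_
    rw [ue_coe hs hL, h, cond_true, cond_true, ue_coe hs hL, hN.ext]

theorem mix_back (hN : LNg Q GrD.G A (Gm D) N) (r : Rs Q Q') (h : MixE Q' (Gm D)) :
    MixE Q (Gm D) := fun ξ w hξ => by
  have t := e0_thm (⟨Q, GrD.G, A, Gm D, N, hN⟩ : Cg D)
  have b := h ξ w hξ
  rw [rs_om r] at b
  refine b.congr' (eventually_nhdsWithin_of_forall fun x hx => ?_)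
  obtain ⟨p1, p2⟩ := CA.lsc_pos hx
  obtain ⟨e, -, h2⟩ := r.U _ p2
  show inner ℂ ξ (Ue Q' _ _ _ _) = _
  rw [ue_rs hN p1 p2 fun v => h2 _ _ v p1]
  cases e
  · rfl
  · have gs : star (Gm D) = Gm D := t.sg.gs
    rw [cond_true, ← gs, ContinuousLinearMap.star_eq_adjoint,
      ContinuousLinearMap.adjoint_inner_right, hξ]

theorem fin_back (hN : LNg Q GrD.G A (Gm D) N) (r : Rs Q Q') {T : Ix → Ix → Fld D}
    (h : FinG Q' T (Gm D) N) : FinG Q T (Gm D) N := by
  classical
  obtain ⟨D', P, G', e, L, E, h0, h2, h3, h4, h6⟩ := h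
  have t := e0_thm (⟨Q, GrD.G, A, Gm D, N, hN⟩ : Cg D)
  have g2 : ∀ z, Gm D (Gm D z) = z := fun z => DFunLike.congr_fun t.sg.g2 z
  have gv0 : Gm D (om Q) = om Q := t.sg.gv
  have hv : (P.vac : Completion D) = om Q := E.vac.trans (rs_om r)
  have gv : G' P.vac = P.vac := Subtype.ext (by rw [E.G, hv, gv0])
  have ex : ∀ M, ∃ e : Bool, IsLor M → (M = GF.one → e = false) ∧ ∀ s a v, 0 < s →
      Q'.U s M a v = cond e (Gd (Q.U s M a v)) (Q.U s M a v) := fun M => by
    by_cases hM : IsLor M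
    · exact (r.U M hM).imp fun _ h _ => h
    · exact ⟨false, fun h => absurd h hM⟩
  choose ε hε using ex
  have e1 : ε GF.one = false := (hε _ H496.isLor_one).1 rfl
  have e2 : ∀ s M a, 0 < s → IsLor M → ∀ v,
      Q'.U s M a v = cond (ε M) (Gd (Q.U s M a v)) (Q.U s M a v) := fun s M a hs hM v =>
    (hε M hM).2 s a v hs
  let P' := rsT E.toGr gv ε e1
  have hU : ∀ s M a (v : D'), 0 < s → IsLor M → (P'.U s M a v : Completion D) = Ue Q s M a v :=
    fun s M a v hs hM => by
      have k := (E.U s M a v hs hM).trans (ue_rs hN hs hM (e2 s M a hs hM) _)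
      show ((cond (ε M) _ _ : D') : Completion D) = _
      revert k
      cases ε M
      · exact id
      · intro k
        rw [cond_true, E.G, k, cond_true, g2]
  refine ⟨D', P', G', e, L, ⟨⟨E.inv, E.herm, E.bose, E.split, E.anti, fun s M a v hs hM => ?_,
    fun s M a s' M' a' hs hs' hM hM' => ?_⟩, fun w h => E.mem w ((rs_cyc r w).2 h), hv, E.G, hU,
    fun B h => E.fld B (r.fld ▸ h), fun B h => E.bos B (r.bose ▸ h),
    fun B B' h h' => E.adj B B' (r.fld ▸ h) (r.fld ▸ h'),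
    fun B f v w h hf hw => E.agree B f v w (r.fld ▸ h) hf ((rs_cyc r w).2 hw)⟩, h0,
    ⟨h2.bose, h2.symm, h2.herm, fun m n s M a f v hs hM hf => ?_, h2.conserved, h2.charge⟩,
    ⟨h3.1, h3.2.1, fun s M a f v hs hM hf => ?_⟩, h4, fun B hB => ?_⟩
  · show cond _ _ _ = G' (cond _ _ _)
    rw [E.GU s M a v hs hM]
    cases ε M <;> rfl
  · have hs2 := mul_pos hs hs'
    have hM2 := ue_lor hM hM'
    refine (hN.mul s M a s' M' a' hs hs' hM hM').imp (fun h w => Subtype.ext ?_)
      fun h => ⟨h.1, h.2.1, fun w => Subtype.ext ?_⟩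
    · rw [hU _ _ _ _ hs hM, hU _ _ _ _ hs' hM', hU _ _ _ _ hs2 hM2]
      refine Completion.induction_on w.1 (isClosed_eq ((ue_cont _ _ _).comp (ue_cont _ _ _))
        (ue_cont _ _ _)) fun v => ?_
      rw [ue_coe hs' hM', ue_coe hs hM, h, ue_coe hs2 hM2]
    · rw [E.G, hU _ _ _ _ hs hM, hU _ _ _ _ hs' hM', hU _ _ _ _ hs2 hM2]
      refine Completion.induction_on w.1 (isClosed_eq ((ue_cont _ _ _).comp (ue_cont _ _ _))
        ((Gm D).continuous.comp (ue_cont _ _ _))) fun v => ?_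
      rw [ue_coe hs' hM', ue_coe hs hM, h.2.2, ue_coe hs2 hM2, hN.ext]
  · have := h2.cov m n s M a f v hs hM hf
    rw [← Fintype.sum_prod_type'] at this ⊢
    exact cov_rs E.toGr (h2.bose m n) hf _ _ _ _ _ this
  · have := cov_rs E.toGr h3.1 hf (ε M) (Finset.univ : Finset Unit)
      (fun _ => ((s ^ (4 - 2 : ℝ) : ℝ) : ℂ)) _ (fun _ => P.U s M a (L (fun x => f (sim s M a x)) v))
      ((h3.2.2 s M a f v hs hM hf).trans (by rw [Fintype.sum_unique]))
    rw [Fintype.sum_unique] at this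
    exact this
  · obtain ⟨n, C, a, b⟩ := h6 B hB
    exact ⟨n, C, fun i => (a i).imp id fun ⟨C', c, d⟩ => ⟨C', r.fld ▸ c, d⟩, b⟩

variable (D) in
/-- row FINZ: the output of the machine for the re-signed theory -/
def FINZ : Prop := ∀ (Q : Theory D) T A N, Q.IsStress T → ND.PCh Q T A → TfGenZ Q → MfAll Q →
  FSL Q → LNmZ Q A N → UVac Q → FinG Q T (Gm D) N ∧ MixE Q (Gm D)

omit [GrD D] in
theorem target_of (h : ∀ [GrD D], RSG D ∧ FINZ D) : Target D := by
  intro Q G T hT A hA hM hF hL Γ N hN hU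
  letI : GrD D := ⟨G, Γ⟩
  let c : Cg D := ⟨Q, G, A, Γ, N, hN⟩
  obtain ⟨T', a1, a2⟩ := EG.H.st T hF hL hT hA (c := c)
  obtain ⟨Q', r, n⟩ := h.1 Q A N hN
  obtain ⟨b1, b2, b3, b4, b5⟩ := trf Q Q' A N hN r n.toRepZ
  obtain ⟨f, m⟩ := h.2 Q' T' A N (b1 _ a1) (b2 _ a2) (b5 hM).1 (b5 hM).2 (b4 hF) n (b3 hU)
  exact ⟨T', a1, a2, concl_of c hM hF (fin_back hN r f) (mix_back hN r m)⟩

end

end Vale.Agent.P352G
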